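import Vale.Agent.Lib.P062.Cert2.Chunk0
import Vale.Agent.Lib.P062.Cert2.Chunk1
import Vale.Agent.Lib.P062.Cert2.Chunk2
import Vale.Agent.Lib.P062.Cert2.Chunk3
import Vale.Agent.Lib.P062.Cert2.Chunk4
import Vale.Agent.Lib.P062.Cert2.Chunk5
import Vale.Agent.Lib.P062.Cert2.Chunk6
import Vale.Agent.Lib.P062.Cert2.Chunk7
import Vale.Agent.Lib.P062.Cert2.Chunk8
import Vale.Agent.Lib.P062.Cert2.Chunk9
import Vale.Agent.Lib.P062.Cert2.Chunk10
import Vale.Agent.Lib.P062.Cert2.Chunk11
import Vale.Agent.Lib.P062.Cert2.Chunk12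
import Vale.Agent.Lib.P062.Cert2.Chunk13
import Vale.Agent.Lib.P062.Cert2.Chunk14
import Vale.Agent.Lib.P062.Cert2.Chunk15
import Vale.Agent.Lib.P062.Cert2.Chunk16
import Vale.Agent.Lib.P062.Cert2.Chunk17
import Vale.Agent.Lib.P062.Cert2.Chunk18
import Vale.Agent.Lib.P062.Cert2.Chunk19
import Vale.Agent.Lib.P062.Cert2.Chunk20
import Vale.Agent.Lib.P062.Cert2.Chunk21
import Vale.Agent.Lib.P062.Cert.Sound4

namespace Vale.Agent.Lib.P062.Cert2

theorem valid0 : ∀ i, i < 248 → (senv.get i).Valid := by
  have h := chkAll_sound senv trees0 0 (fun i hi => absurd hi (Nat.not_lt_zero i)) ok0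
  rwa [len0] at h

theorem valid1 : ∀ i, i < 469 → (senv.get i).Valid := by
  have h := chkAll_sound senv trees1 248 valid0 ok1
  rwa [len1] at h

theorem valid2 : ∀ i, i < 660 → (senv.get i).Valid := by
  have h := chkAll_sound senv trees2 469 valid1 ok2
  rwa [len2] at h

theorem valid3 : ∀ i, i < 841 → (senv.get i).Valid := by
  have h := chkAll_sound senv trees3 660 valid2 ok3
  rwa [len3] at h

theorem valid4 : ∀ i, i < 1008 → (senv.get i).Valid := by
  have h := chkAll_sound senv trees4 841 valid3 ok4
  rwa [len4] at h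

theorem valid5 : ∀ i, i < 1109 → (senv.get i).Valid := by
  have h := chkAll_sound senv trees5 1008 valid4 ok5
  rwa [len5] at h

theorem valid6 : ∀ i, i < 1202 → (senv.get i).Valid := by
  have h := chkAll_sound senv trees6 1109 valid5 ok6
  rwa [len6] at h

theorem valid7 : ∀ i, i < 1342 → (senv.get i).Valid := by
  have h := chkAll_sound senv trees7 1202 valid6 ok7
  rwa [len7] at h

theorem valid8 : ∀ i, i < 1420 → (senv.get i).Valid := by
  have h := chkAll_sound senv trees8 1342 valid7 ok8
  rwa [len8] at h

theorem valid9 : ∀ i, i < 1583 → (senv.get i).Valid := by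
  have h := chkAll_sound senv trees9 1420 valid8 ok9
  rwa [len9] at h

theorem valid10 : ∀ i, i < 1642 → (senv.get i).Valid := by
  have h := chkAll_sound senv trees10 1583 valid9 ok10
  rwa [len10] at h

theorem valid11 : ∀ i, i < 1732 → (senv.get i).Valid := by
  have h := chkAll_sound senv trees11 1642 valid10 ok11
  rwa [len11] at h

theorem valid12 : ∀ i, i < 1856 → (senv.get i).Valid := by
  have h := chkAll_sound senv trees12 1732 valid11 ok12
  rwa [len12] at h

theorem valid13 : ∀ i, i < 1949 → (senv.get i).Valid := by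
  have h := chkAll_sound senv trees13 1856 valid12 ok13
  rwa [len13] at h

theorem valid14 : ∀ i, i < 2043 → (senv.get i).Valid := by
  have h := chkAll_sound senv trees14 1949 valid13 ok14
  rwa [len14] at h

theorem valid15 : ∀ i, i < 2117 → (senv.get i).Valid := by
  have h := chkAll_sound senv trees15 2043 valid14 ok15
  rwa [len15] at h

theorem valid16 : ∀ i, i < 2196 → (senv.get i).Valid := by
  have h := chkAll_sound senv trees16 2117 valid15 ok16
  rwa [len16] at h

theorem valid17 : ∀ i, i < 2282 → (senv.get i).Valid := by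
  have h := chkAll_sound senv trees17 2196 valid16 ok17
  rwa [len17] at h

theorem valid18 : ∀ i, i < 2490 → (senv.get i).Valid := by
  have h := chkAll_sound senv trees18 2282 valid17 ok18
  rwa [len18] at h

theorem valid19 : ∀ i, i < 2716 → (senv.get i).Valid := by
  have h := chkAll_sound senv trees19 2490 valid18 ok19
  rwa [len19] at h

theorem valid20 : ∀ i, i < 2942 → (senv.get i).Valid := by
  have h := chkAll_sound senv trees20 2716 valid19 ok20
  rwa [len20] at h

theorem valid21 : ∀ i, i < 3168 → (senv.get i).Valid := by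
  have h := chkAll_sound senv trees21 2942 valid20 ok21
  rwa [len21] at h

/-- The indices of the root lemmas after the first one. -/
def rootRest : List ℕ := [932, 1266, 1927, 1904, 755, 1525, 2160, 659, 1146, 1419, 1731, 1812, 2158, 2193, 2263, 428, 563, 813, 817, 1007, 1068, 1115, 1341, 1400, 1597, 1648, 1848, 1880, 2002, 2064, 2128, 2246, 2489, 2715, 2941, 3167]

theorem root_ok : chkRoot senv 3168 (cbit 528) excl4 170 rootRest = true := by decide +kernel

/-- Maker, owning the origin and to move, wins against every single Breaker cell outside the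
excluded set. -/
theorem maker_wins (b : Cell) (hb0 : b ≠ (0, 0)) (hadj : ¬(|b.1| + |b.2| = 1)) :
    MakerWinsFrom {(0, 0)} {b} :=
  maker_wins_of_root4 senv 3168 170 rootRest valid21 root_ok b hb0 hadj

end Vale.Agent.Lib.P062.Cert2
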